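import Vale.Agent.P275.H490.Defs

/-!
# P275.LowestDegree, row BD
-/

set_option linter.all false

namespace Vale.Agent.P275.H522

open scoped BigOperators
open Vale.Agent.P275.H341 Vale.Agent.P275.H490

/-- **Row BD.** -/
theorem rowBD : RowBD := by
  intro k lam hlam hne
  rw [Pt, Finset.mem_filter, Finset.Nat.mem_antidiagonalTuple] at hlam
  obtain ⟨hsum, hanti⟩ := hlam
  rcases k with _ | k
  · exact absurd (funext fun i => i.elim0) hne
  have h0 : lam 0 ≤ k := by
    by_contra hc
    apply hne
    have h1 : lam 0 + ∑ i : Fin k, lam i.succ = k + 1 := by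
      rw [← Fin.sum_univ_succ]
      exact hsum
    have h2 : lam 0 = k + 1 := by omega
    have h3 : ∑ i : Fin k, lam i.succ = 0 := by omega
    funext i
    refine Fin.cases ?_ (fun j => ?_) i
    · simp [h2]
    · have := Finset.sum_eq_zero_iff.1 h3 j (Finset.mem_univ j)
      simp [this]
  have h1 : ∀ i, lam i ≤ k := fun i => (hanti 0 i (Fin.zero_le i)).trans h0
  have hk : 1 ≤ k := by
    rcases Nat.eq_zero_or_pos k with rfl | h
    · have : ∑ i, lam i = 0 := Finset.sum_eq_zero fun i _ => Nat.le_zero.1 (h1 i)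
      omega
    · exact h
  refine ⟨by omega, ?_⟩
  have h2 : ∑ i, lam i * (lam i + 1) ≤ ∑ i, lam i * (k + 1) :=
    Finset.sum_le_sum fun i _ => Nat.mul_le_mul_left _ (by have := h1 i; omega)
  rw [← Finset.sum_mul, hsum] at h2
  nlinarith

end Vale.Agent.P275.H522
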